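import Vale.Agent.Lib.P154.AFSound
import Vale.Agent.Lib.P154.ST.Prog

/-! Real values of the programs. -/

namespace Vale.Agent.Lib.P154

namespace ST

lemma evR_lc {x y : Ex} {env : List ℝ} {v r : ℝ} (h1 : Ex.evR x env = v) (h2 : Ex.evR y (v :: env) = r) :
    Ex.evR (Ex.l x y) env = r := by
  subst h1; subst h2; rfl

/-- Upper bound polynomial for the quartic coefficient. -/
noncomputable def AbF (x y : ℝ) : ℝ := ((((((((((((((((rv 281474977613824 * y) + rv 281474976801792) * y) + rv 281474976924416) * y) + rv 281474970579456) * y) + rv 281474975162624) * x) + ((((((((rv 281474987337216 * y) + rv 281474986235392) * y) + rv 281474980501248) * y) + rv 281474982493696) * y) + rv 281474978027264)) * x) + ((((((((rv 281474988283392 * y) + rv 281474979836672) * y) + rv 281474981704448) * y) + rv 281474984430080) * y) + rv 281474978331904)) * x) + ((((((((rv 281474975409408 * y) + rv 281474964539648) * y) + rv 281474978260224) * y) + rv 281474968637952) * y) + rv 281474974409472)) *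 x) + ((((((((rv 281474986645248 * y) + rv 281474980911104) * y) + rv 281474987010816) * y) + rv 281474978710016) * y) + rv 281474995945472))

/-- Upper bound polynomial for the quadratic coefficient. -/
noncomputable def BbF (x y : ℝ) : ℝ := ((((((((((((((((((((((((rv 281475040266496 * y) + rv 281475038374912) * y) + rv 281475026783488) * y) + rv 281475005872128) * y) + rv 281474985902080) * y) + rv 281475037688832) * y) + rv 281474991685376) * x) + ((((((((((((rv 281474999572480 * y) + rv 281475026283008) * y) + rv 281475045239552) * y) + rv 281475020581376) * y) + rv 281474990400768) * y) + rv 281475054745344) * y) + rv 281474995824384)) * x) + ((((((((((((rv 281474793669376 * y) + rv 281474841993984) * y) + rv 281474861923072) * y) + rv 281474904681728) * y) + rv 281474954136832) * y) + rv 281474722600960) * y) + rv 281474913829888)) * x) + ((((((((((((rv 281475057225984 * y) + rv 281474937308672) * y) + rv 281474965863680) * y) + rv 281475032429312) * y) + rv 281475010435072)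 * y) + rv 281475097420800) * y) + rv 281475005635072)) * x) + ((((((((((((rv 281475176306176 * y) + rv 281474890029568) * y) + rv 281475082371584) * y) + rv 281474957732864) * y) + rv 281475003130624) * y) + rv 281475178040320) * y) + rv 281475024549120)) * x) + ((((((((((((rv 281474891772928 * y) + rv 281474698747136) * y) + rv 281474930939904) * y) + rv 281474712312064) * y) + rv 281474915546624) * y) + rv 281474631778816) * y) + rv 281474890097152)) * x) + ((((((((((((rv 281475085973760 * y) + rv 281475026856448) * y) + rv 281475072358656) * y) + rv 281474991521792) * y) + rv 281475093758976) * y) + rv 281474938666240) * y) + rv 281475149648640))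

/-- Value of h. -/
noncomputable def ch (r b l u : ℝ) : ℝ := ((b * b) - b)

/-- Value of g. -/
noncomputable def cg (r b l u : ℝ) : ℝ := (ch r b l u + rv 281475245146112)

/-- Value of g2. -/
noncomputable def cg2 (r b l u : ℝ) : ℝ := (cg r b l u * cg r b l u)

/-- Value of g3. -/
noncomputable def cg3 (r b l u : ℝ) : ℝ := (cg2 r b l u * cg r b l u)

/-- Value of g4. -/
noncomputable def cg4 (r b l u : ℝ) : ℝ := (cg3 r b l u * cg r b l u)

/-- Value of g5. -/
noncomputable def cg5 (r b l u : ℝ) : ℝ := (cg4 r b l u * cg r b l u)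

/-- Value of g6. -/
noncomputable def cg6 (r b l u : ℝ) : ℝ := (cg5 r b l u * cg r b l u)

/-- Value of g7. -/
noncomputable def cg7 (r b l u : ℝ) : ℝ := (cg6 r b l u * cg r b l u)

/-- Value of g8. -/
noncomputable def cg8 (r b l u : ℝ) : ℝ := (cg7 r b l u * cg r b l u)

/-- Value of g9. -/
noncomputable def cg9 (r b l u : ℝ) : ℝ := (cg8 r b l u * cg r b l u)

/-- Value of h2. -/
noncomputable def ch2 (r b l u : ℝ) : ℝ := (ch r b l u * ch r b l u)

/-- Value of h3. -/
noncomputable def ch3 (r b l u : ℝ) : ℝ := (ch2 r b l u * ch r b l u)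

/-- Value of h4. -/
noncomputable def ch4 (r b l u : ℝ) : ℝ := (ch3 r b l u * ch r b l u)

/-- Value of h5. -/
noncomputable def ch5 (r b l u : ℝ) : ℝ := (ch4 r b l u * ch r b l u)

/-- Value of h6. -/
noncomputable def ch6 (r b l u : ℝ) : ℝ := (ch5 r b l u * ch r b l u)

/-- Value of Mt. -/
noncomputable def cMt (r b l u : ℝ) : ℝ := ((((((((((((((((((((((((((((((((rv 281474981189632 * ch6 r b l u) + (rv 281474988488704 * (cg3 r b l u * ch4 r b l u))) + (rv 281474978369536 * (cg6 r b l u * ch2 r b l u))) + (rv 281474976636928 * cg9 r b l u)) * r) + (((rv 281475088685056 * (cg r b l u * ch5 r b l u)) + (rv 281475024652288 * (cg4 r b l u * ch3 r b l u))) + (rv 281474990313472 * (cg7 r b l u * ch r b l u)))) * r) + (((rv 281475520159744 * (cg2 r b l u * ch4 r b l u)) + (rv 281475238481920 * (cg5 r b l u * ch2 r b l u))) + (rv 281474999271424 * cg8 r b l u))) * r) + (((rv 281475357423616 * ch5 r b l u) + (rv 281476894541824 * (cg3 r b l u * ch3 r b l u))) + (rv 281475607748608 * (cg6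 r b l u * ch r b l u)))) * r) + (((rv 281477646180352 * (cg r b l u * ch4 r b l u)) + (rv 281480186257408 * (cg4 r b l u * ch2 r b l u))) + (rv 281475307159552 * cg7 r b l u))) * r) + ((rv 281486162206720 * (cg2 r b l u * ch3 r b l u)) + (rv 281480430112768 * (cg5 r b l u * ch r b l u)))) * r) + (((rv 281480566472704 * ch4 r b l u) + (rv 281495749206016 * (cg3 r b l u * ch2 r b l u))) + (rv 281476791525376 * cg6 r b l u))) * r) + ((rv 281494406508544 * (cg r b l u * ch3 r b l u)) + (rv 281491329949696 * (cg4 r b l u * ch r b l u)))) * r) + ((rv 281505702486016 * (cg2 r b l u * ch2 r b l u)) + (rv 281479666696192 * cg5 r b l u))) * r) + ((rv 281483580823552 * ch3 r b l u) + (rv 281496728940544 * (cg3 r b l u * ch r b l u)))) * r) + ((rv 281493094168576 * (cg r b l u * ch2 r b l u)) + (rv 281479749971968 * cg4 r b l u))) * r) + (rv 281485212663808 * (cg2 r b l u * ch r b l u))) * r) + ((rv 281479818483712 * ch2 r b l u) + (rv 281476250066944 * cg3 r b l u))) * r) + (rv 281476221865984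 * (cg r b l u * ch r b l u))) * r) + (rv 281475045388288 * cg2 r b l u))

/-- Value of st. -/
noncomputable def cst (r b l u : ℝ) : ℝ := ((((((((((((((((rv 281475782017024 * ch3 r b l u) + (rv 281477392629760 * (cg3 r b l u * ch r b l u))) * r) + ((rv 281494304063488 * (cg r b l u * ch2 r b l u)) + (rv 281479808548864 * cg4 r b l u))) * r) + (rv 281542622445568 * (cg2 r b l u * ch r b l u))) * r) + ((rv 281542622445568 * ch2 r b l u) + (rv 281520073867264 * cg3 r b l u))) * r) + (rv 281644091047936 * (cg r b l u * ch r b l u))) * r) + (rv 281542622445568 * cg2 r b l u)) * r) + (rv 281542622445568 * ch r b l u)) * r) + (rv 281494304063488 * cg r b l u))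

/-- Value of ts. -/
noncomputable def cts (r b l u : ℝ) : ℝ := (r * cst r b l u)

/-- Value of S. -/
noncomputable def cS (r b l u : ℝ) : ℝ := (rv 281475782017024 + (r * cts r b l u))

/-- Value of y0. -/
noncomputable def cy0 (r b l u : ℝ) : ℝ := (rv 281475245146112 + (r * b))

/-- Value of y1. -/
noncomputable def cy1 (r b l u : ℝ) : ℝ := (rv 281475245146112 + (r * (rv 281475245146112 - b)))

/-- Value of y2. -/
noncomputable def cy2 (r b l u : ℝ) : ℝ := (rv 281475245146112 - r)

/-- Value of D0. -/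
noncomputable def cD0 (r b l u : ℝ) : ℝ := ((((((((((((((((rv 281475245146112 * cy0 r b l u) + rv 281475245146112) * cy0 r b l u) + rv 281475245146112) * cy0 r b l u) + rv 281475245146112) * cy0 r b l u) + rv 281475245146112) * cy0 r b l u) + rv 281475245146112) * cy0 r b l u) + rv 281475245146112) * cy0 r b l u) + rv 281475245146112) * cy0 r b l u) + rv 281475245146112)

/-- Value of D1. -/
noncomputable def cD1 (r b l u : ℝ) : ℝ := ((((((((((((((((rv 281475245146112 * cy1 r b l u) + rv 281475245146112) * cy1 r b l u) + rv 281475245146112) * cy1 r b l u) + rv 281475245146112) * cy1 r b l u) + rv 281475245146112) * cy1 r b l u) + rv 281475245146112) * cy1 r b l u) + rv 281475245146112) * cy1 r b l u) + rv 281475245146112) * cy1 r b l u) + rv 281475245146112)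

/-- Value of D2. -/
noncomputable def cD2 (r b l u : ℝ) : ℝ := ((((((((((((((((rv 281475245146112 * cy2 r b l u) + rv 281475245146112) * cy2 r b l u) + rv 281475245146112) * cy2 r b l u) + rv 281475245146112) * cy2 r b l u) + rv 281475245146112) * cy2 r b l u) + rv 281475245146112) * cy2 r b l u) + rv 281475245146112) * cy2 r b l u) + rv 281475245146112) * cy2 r b l u) + rv 281475245146112)

/-- Value of P0. -/
noncomputable def cP0 (r b l u : ℝ) : ℝ := ((rv 281475782017024 * (b * cD0 r b l u)) - cts r b l u)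

/-- Value of P1. -/
noncomputable def cP1 (r b l u : ℝ) : ℝ := ((rv 281475782017024 * ((rv 281475245146112 - b) * cD1 r b l u)) - cts r b l u)

/-- Value of Pt. -/
noncomputable def cPt (r b l u : ℝ) : ℝ := ((rv 281475782017024 * cD2 r b l u) + cts r b l u)

/-- Value of n0. -/
noncomputable def cn0 (r b l u : ℝ) : ℝ := (rv 281474977759232 * cP0 r b l u)

/-- Value of n1. -/
noncomputable def cn1 (r b l u : ℝ) : ℝ := (rv 281474977759232 * cP1 r b l u)

/-- Value of n2. -/
noncomputable def cn2 (r b l u : ℝ) : ℝ := (rv 281474977759232 * cPt r b l u)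

/-- Value of Nn. -/
noncomputable def cNn (r b l u : ℝ) : ℝ := (rv 281543696187392 * (((cn0 r b l u * cn0 r b l u) + (cn1 r b l u * cn1 r b l u)) + (cn2 r b l u * cn2 r b l u)))

/-- Value of aa. -/
noncomputable def caa (r b l u : ℝ) : ℝ := (cP0 r b l u * (cPt r b l u)⁻¹)

/-- Value of iS. -/
noncomputable def ciS (r b l u : ℝ) : ℝ := (cS r b l u)⁻¹

/-- Value of tt. -/
noncomputable def ctt (r b l u : ℝ) : ℝ := (r * (cPt r b l u * ciS r b l u))

/-- Value of tp3. -/
noncomputable def ctp3 (r b l u : ℝ) : ℝ := (l * ctt r b l u)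

/-- Value of x3. -/
noncomputable def cx3 (r b l u : ℝ) : ℝ := (caa r b l u - rv 281475312254976)

/-- Value of y3. -/
noncomputable def cy3 (r b l u : ℝ) : ℝ := (ctp3 r b l u - rv 281475043819520)

/-- Value of Ab3. -/
noncomputable def cAb3 (r b l u : ℝ) : ℝ := AbF (cx3 r b l u) (cy3 r b l u)

/-- Value of Bb3. -/
noncomputable def cBb3 (r b l u : ℝ) : ℝ := BbF (cx3 r b l u) (cy3 r b l u)

/-- Value of L3. -/
noncomputable def cL3 (r b l u : ℝ) : ℝ := (l * l)

/-- Value of rhs3. -/
noncomputable def crhs3 (r b l u : ℝ) : ℝ := (((cL3 r b l u * cAb3 r b l u) + ((rv 281475008499200 * (rv 281475245146112 - cL3 r b l u)) * (cBb3 r b l u * cBb3 r b l u))) + rv 281474976841728)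

/-- Value of the program K3c. -/
noncomputable def RK3c (r b l u : ℝ) : ℝ := ((cMt r b l u * (cS r b l u * cS r b l u)) - ((cNn r b l u * cNn r b l u) * crhs3 r b l u))

set_option maxRecDepth 100000 in
theorem evR_K3c (r b l u : ℝ) : Ex.evR K3c [r, b, l, u] = RK3c r b l u :=
  evR_lc (v := ch r b l u) rfl (evR_lc (v := cg r b l u) rfl (evR_lc (v := cg2 r b l u) rfl (evR_lc (v := cg3 r b l u) rfl (evR_lc (v := cg4 r b l u) rfl (evR_lc (v := cg5 r b l u) rfl (evR_lc (v := cg6 r b l u) rfl (evR_lc (v := cg7 r b l u) rfl (evR_lc (v := cg8 r b l u) rfl (evR_lc (v := cg9 r b l u) rfl (evR_lc (v := ch2 r b l u) rfl (evR_lc (v := ch3 r b l u) rfl (evR_lc (v := ch4 r b l u) rfl (evR_lc (v := ch5 r b l u) rfl (evR_lc (v := ch6 r b l u) rfl (evR_lc (v := cMt r b l u) rfl (evR_lc (v := cst r b l u) rfl (evR_lc (v := cts r b l u) rfl (evR_lc (v := cS r b l u) rfl (evR_lc (v := cy0 r b l u) rfl (evR_lc (v := cy1 r b l u) rfl (evR_lc (v := cy2 r b l u) rfl (evR_lc (v := cD0 r b l u) rfl (evR_lc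 (v := cD1 r b l u) rfl (evR_lc (v := cD2 r b l u) rfl (evR_lc (v := cP0 r b l u) rfl (evR_lc (v := cP1 r b l u) rfl (evR_lc (v := cPt r b l u) rfl (evR_lc (v := cn0 r b l u) rfl (evR_lc (v := cn1 r b l u) rfl (evR_lc (v := cn2 r b l u) rfl (evR_lc (v := cNn r b l u) rfl (evR_lc (v := caa r b l u) rfl (evR_lc (v := ciS r b l u) rfl (evR_lc (v := ctt r b l u) rfl (evR_lc (v := ctp3 r b l u) rfl (evR_lc (v := cx3 r b l u) rfl (evR_lc (v := cy3 r b l u) rfl (evR_lc (v := cAb3 r b l u) rfl (evR_lc (v := cBb3 r b l u) rfl (evR_lc (v := cL3 r b l u) rfl (evR_lc (v := crhs3 r b l u) rfl (rfl))))))))))))))))))))))))))))))))))))))))))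

/-- Value of xa. -/
noncomputable def cxa (r b l u : ℝ) : ℝ := (caa r b l u - rv 281475312254976)

/-- Value of ya. -/
noncomputable def cya (r b l u : ℝ) : ℝ := (ctt r b l u - rv 281475043819520)

/-- Value of Aba. -/
noncomputable def cAba (r b l u : ℝ) : ℝ := AbF (cxa r b l u) (cya r b l u)

/-- Value of NN. -/
noncomputable def cNN (r b l u : ℝ) : ℝ := (cNn r b l u * cNn r b l u)

/-- Value of the program KAu. -/
noncomputable def RKAu (r b l u : ℝ) : ℝ := ((cNN r b l u * cAba r b l u) - (cMt r b l u * (cS r b l u * cS r b l u)))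

set_option maxRecDepth 100000 in
theorem evR_KAu (r b l u : ℝ) : Ex.evR KAu [r, b, l, u] = RKAu r b l u :=
  evR_lc (v := ch r b l u) rfl (evR_lc (v := cg r b l u) rfl (evR_lc (v := cg2 r b l u) rfl (evR_lc (v := cg3 r b l u) rfl (evR_lc (v := cg4 r b l u) rfl (evR_lc (v := cg5 r b l u) rfl (evR_lc (v := cg6 r b l u) rfl (evR_lc (v := cg7 r b l u) rfl (evR_lc (v := cg8 r b l u) rfl (evR_lc (v := cg9 r b l u) rfl (evR_lc (v := ch2 r b l u) rfl (evR_lc (v := ch3 r b l u) rfl (evR_lc (v := ch4 r b l u) rfl (evR_lc (v := ch5 r b l u) rfl (evR_lc (v := ch6 r b l u) rfl (evR_lc (v := cMt r b l u) rfl (evR_lc (v := cst r b l u) rfl (evR_lc (v := cts r b l u) rfl (evR_lc (v := cS r b l u) rfl (evR_lc (v := cy0 r b l u) rfl (evR_lc (v := cy1 r b l u) rfl (evR_lc (v := cy2 r b l u) rfl (evR_lc (v := cD0 r b l u) rfl (evR_lc (v := cD1 r b l u) rfl (evR_lc (v := cD2 r b l u) rfl (evR_lc (v := cP0 r b l u) rfl (evR_lc (v := cP1 r b l u) rfl (evR_lc (v := cPt r b l u) rfl (evR_lc (v := cn0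 r b l u) rfl (evR_lc (v := cn1 r b l u) rfl (evR_lc (v := cn2 r b l u) rfl (evR_lc (v := cNn r b l u) rfl (evR_lc (v := caa r b l u) rfl (evR_lc (v := ciS r b l u) rfl (evR_lc (v := ctt r b l u) rfl (evR_lc (v := cxa r b l u) rfl (evR_lc (v := cya r b l u) rfl (evR_lc (v := cAba r b l u) rfl (evR_lc (v := cNN r b l u) rfl (rfl)))))))))))))))))))))))))))))))))))))))

/-- Value of Wt. -/
noncomputable def cWt (r b l u : ℝ) : ℝ := ((((((((((((((((rv 281391627501568 * ch3 r b l u) + (rv 281479003242496 * (cg3 r b l u * ch r b l u))) * r) + ((rv 281483432427520 * (cg r b l u * ch2 r b l u)) + (rv 281427463634944 * cg4 r b l u))) * r) + (rv 280972465537024 * (cg2 r b l u * ch r b l u))) * r) + ((rv 280666851770368 * ch2 r b l u) + (rv 281273650118656 * cg3 r b l u))) * r) + (rv 281042527191040 * (cg r b l u * ch r b l u))) * r) + (rv 280805767118848 * cg2 r b l u)) * r) + (rv 280750200979456 * ch r b l u)) * r) + (rv 281566781636608 * cg r b l u))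

/-- Value of Bba. -/
noncomputable def cBba (r b l u : ℝ) : ℝ := BbF (cxa r b l u) (cya r b l u)

/-- Value of Ws. -/
noncomputable def cWs (r b l u : ℝ) : ℝ := (rv 281474977759232 * (cWt r b l u * cS r b l u))

/-- Value of the program KBu. -/
noncomputable def RKBu (r b l u : ℝ) : ℝ := ((cNn r b l u * cBba r b l u) - cWs r b l u)

set_option maxRecDepth 100000 in
theorem evR_KBu (r b l u : ℝ) : Ex.evR KBu [r, b, l, u] = RKBu r b l u :=
  evR_lc (v := ch r b l u) rfl (evR_lc (v := cg r b l u) rfl (evR_lc (v := cg2 r b l u) rfl (evR_lc (v := cg3 r b l u) rfl (evR_lc (v := cg4 r b l u) rfl (evR_lc (v := cg5 r b l u) rfl (evR_lc (v := cg6 r b l u) rfl (evR_lc (v := cg7 r b l u) rfl (evR_lc (v := cg8 r b l u) rfl (evR_lc (v := cg9 r b l u) rfl (evR_lc (v := ch2 r b l u) rfl (evR_lc (v := ch3 r b l u) rfl (evR_lc (v := ch4 r b l u) rfl (evR_lc (v := ch5 r b l u) rfl (evR_lc (v := ch6 r b l u) rfl (evR_lc (v := cMt r b l u) rfl (evR_lc (v := cst r b l u) rfl (evR_lc (v := cts r b l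 u) rfl (evR_lc (v := cS r b l u) rfl (evR_lc (v := cy0 r b l u) rfl (evR_lc (v := cy1 r b l u) rfl (evR_lc (v := cy2 r b l u) rfl (evR_lc (v := cD0 r b l u) rfl (evR_lc (v := cD1 r b l u) rfl (evR_lc (v := cD2 r b l u) rfl (evR_lc (v := cP0 r b l u) rfl (evR_lc (v := cP1 r b l u) rfl (evR_lc (v := cPt r b l u) rfl (evR_lc (v := cn0 r b l u) rfl (evR_lc (v := cn1 r b l u) rfl (evR_lc (v := cn2 r b l u) rfl (evR_lc (v := cNn r b l u) rfl (evR_lc (v := caa r b l u) rfl (evR_lc (v := ciS r b l u) rfl (evR_lc (v := ctt r b l u) rfl (evR_lc (v := cWt r b l u) rfl (evR_lc (v := cxa r b l u) rfl (evR_lc (v := cya r b l u) rfl (evR_lc (v := cBba r b l u) rfl (evR_lc (v := cWs r b l u) rfl (rfl))))))))))))))))))))))))))))))))))))))))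

/-- Value of the program KBl. -/
noncomputable def RKBl (r b l u : ℝ) : ℝ := ((cNn r b l u * cBba r b l u) + cWs r b l u)

set_option maxRecDepth 100000 in
theorem evR_KBl (r b l u : ℝ) : Ex.evR KBl [r, b, l, u] = RKBl r b l u :=
  evR_lc (v := ch r b l u) rfl (evR_lc (v := cg r b l u) rfl (evR_lc (v := cg2 r b l u) rfl (evR_lc (v := cg3 r b l u) rfl (evR_lc (v := cg4 r b l u) rfl (evR_lc (v := cg5 r b l u) rfl (evR_lc (v := cg6 r b l u) rfl (evR_lc (v := cg7 r b l u) rfl (evR_lc (v := cg8 r b l u) rfl (evR_lc (v := cg9 r b l u) rfl (evR_lc (v := ch2 r b l u) rfl (evR_lc (v := ch3 r b l u) rfl (evR_lc (v := ch4 r b l u) rfl (evR_lc (v := ch5 r b l u) rfl (evR_lc (v := ch6 r b l u) rfl (evR_lc (v := cMt r b l u) rfl (evR_lc (v := cst r b l u) rfl (evR_lc (v := cts r b l u) rfl (evR_lc (v := cS r b l u) rfl (evR_lc (v := cy0 r b l u) rfl (evR_lc (v := cy1 r b l u) rfl (evR_lc (v := cy2 r b l u) rfl (evR_lc (v := cD0 r b l u) rfl (evR_lc (v := cD1 r b l u) rfl (evR_lc (v := cD2 r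 b l u) rfl (evR_lc (v := cP0 r b l u) rfl (evR_lc (v := cP1 r b l u) rfl (evR_lc (v := cPt r b l u) rfl (evR_lc (v := cn0 r b l u) rfl (evR_lc (v := cn1 r b l u) rfl (evR_lc (v := cn2 r b l u) rfl (evR_lc (v := cNn r b l u) rfl (evR_lc (v := caa r b l u) rfl (evR_lc (v := ciS r b l u) rfl (evR_lc (v := ctt r b l u) rfl (evR_lc (v := cWt r b l u) rfl (evR_lc (v := cxa r b l u) rfl (evR_lc (v := cya r b l u) rfl (evR_lc (v := cBba r b l u) rfl (evR_lc (v := cWs r b l u) rfl (rfl))))))))))))))))))))))))))))))))))))))))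

/-- Value of a2. -/
noncomputable def fa2 (r b l u : ℝ) : ℝ := (r * r)

/-- Value of a3. -/
noncomputable def fa3 (r b l u : ℝ) : ℝ := (fa2 r b l u * r)

/-- Value of a4. -/
noncomputable def fa4 (r b l u : ℝ) : ℝ := (fa3 r b l u * r)

/-- Value of a5. -/
noncomputable def fa5 (r b l u : ℝ) : ℝ := (fa4 r b l u * r)

/-- Value of a6. -/
noncomputable def fa6 (r b l u : ℝ) : ℝ := (fa5 r b l u * r)

/-- Value of a7. -/
noncomputable def fa7 (r b l u : ℝ) : ℝ := (fa6 r b l u * r)

/-- Value of a8. -/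
noncomputable def fa8 (r b l u : ℝ) : ℝ := (fa7 r b l u * r)

/-- Value of a9. -/
noncomputable def fa9 (r b l u : ℝ) : ℝ := (fa8 r b l u * r)

/-- Value of b2. -/
noncomputable def fb2 (r b l u : ℝ) : ℝ := (b * b)

/-- Value of b3. -/
noncomputable def fb3 (r b l u : ℝ) : ℝ := (fb2 r b l u * b)

/-- Value of b4. -/
noncomputable def fb4 (r b l u : ℝ) : ℝ := (fb3 r b l u * b)

/-- Value of b5. -/
noncomputable def fb5 (r b l u : ℝ) : ℝ := (fb4 r b l u * b)

/-- Value of b6. -/
noncomputable def fb6 (r b l u : ℝ) : ℝ := (fb5 r b l u * b)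

/-- Value of b7. -/
noncomputable def fb7 (r b l u : ℝ) : ℝ := (fb6 r b l u * b)

/-- Value of b8. -/
noncomputable def fb8 (r b l u : ℝ) : ℝ := (fb7 r b l u * b)

/-- Value of b9. -/
noncomputable def fb9 (r b l u : ℝ) : ℝ := (fb8 r b l u * b)

/-- Value of S. -/
noncomputable def fS (r b l u : ℝ) : ℝ := ((rv 281475245146112 + fa9 r b l u) + fb9 r b l u)

/-- Value of mq. -/
noncomputable def fmq (r b l u : ℝ) : ℝ := ((((((fa3 r b l u * b) + (r * fb3 r b l u)) + (fa5 r b l u * b)) + (fb5 r b l u * r)) + (fa5 r b l u * fb3 r b l u)) + (fa3 r b l u * fb5 r b l u))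

/-- Value of mp. -/
noncomputable def fmp (r b l u : ℝ) : ℝ := (fa3 r b l u * fb3 r b l u)

/-- Value of Lp. -/
noncomputable def fLp (r b l u : ℝ) : ℝ := (((rv 281479808548864 * fS r b l u) - (rv 281485848346624 * fmq r b l u)) + (rv 281525711011840 * fmp r b l u))

/-- Value of P0. -/
noncomputable def fP0 (r b l u : ℝ) : ℝ := (rv 281475782017024 - fS r b l u)

/-- Value of P1. -/
noncomputable def fP1 (r b l u : ℝ) : ℝ := ((rv 281475782017024 * fa9 r b l u) - fS r b l u)

/-- Value of Pt. -/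
noncomputable def fPt (r b l u : ℝ) : ℝ := (fS r b l u - (rv 281475782017024 * fb9 r b l u))

/-- Value of Nx. -/
noncomputable def fNx (r b l u : ℝ) : ℝ := (((fP0 r b l u * fP0 r b l u) + (fP1 r b l u * fP1 r b l u)) + (fPt r b l u * fPt r b l u))

/-- Value of M. -/
noncomputable def fM (r b l u : ℝ) : ℝ := ((fS r b l u * fLp r b l u) - fNx r b l u)

/-- Value of aa. -/
noncomputable def faa (r b l u : ℝ) : ℝ := (fP0 r b l u * (fPt r b l u)⁻¹)

/-- Value of iS. -/
noncomputable def fiS (r b l u : ℝ) : ℝ := (fS r b l u)⁻¹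

/-- Value of tt. -/
noncomputable def ftt (r b l u : ℝ) : ℝ := (fPt r b l u * fiS r b l u)

/-- Value of tp3. -/
noncomputable def ftp3 (r b l u : ℝ) : ℝ := (l * ftt r b l u)

/-- Value of x3. -/
noncomputable def fx3 (r b l u : ℝ) : ℝ := (faa r b l u - rv 281475312254976)

/-- Value of y3. -/
noncomputable def fy3 (r b l u : ℝ) : ℝ := (ftp3 r b l u - rv 281475043819520)

/-- Value of Ab3. -/
noncomputable def fAb3 (r b l u : ℝ) : ℝ := AbF (fx3 r b l u) (fy3 r b l u)

/-- Value of Bb3. -/
noncomputable def fBb3 (r b l u : ℝ) : ℝ := BbF (fx3 r b l u) (fy3 r b l u)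

/-- Value of L3. -/
noncomputable def fL3 (r b l u : ℝ) : ℝ := (l * l)

/-- Value of rhs3. -/
noncomputable def frhs3 (r b l u : ℝ) : ℝ := (((fL3 r b l u * fAb3 r b l u) + ((rv 281475008499200 * (rv 281475245146112 - fL3 r b l u)) * (fBb3 r b l u * fBb3 r b l u))) + rv 281474976841728)

/-- Value of the program K3f. -/
noncomputable def RK3f (r b l u : ℝ) : ℝ := ((fM r b l u * (fS r b l u * fS r b l u)) - ((fNx r b l u * fNx r b l u) * frhs3 r b l u))

set_option maxRecDepth 100000 in
theorem evR_K3f (r b l u : ℝ) : Ex.evR K3f [r, b, l, u] = RK3f r b l u :=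
  evR_lc (v := fa2 r b l u) rfl (evR_lc (v := fa3 r b l u) rfl (evR_lc (v := fa4 r b l u) rfl (evR_lc (v := fa5 r b l u) rfl (evR_lc (v := fa6 r b l u) rfl (evR_lc (v := fa7 r b l u) rfl (evR_lc (v := fa8 r b l u) rfl (evR_lc (v := fa9 r b l u) rfl (evR_lc (v := fb2 r b l u) rfl (evR_lc (v := fb3 r b l u) rfl (evR_lc (v := fb4 r b l u) rfl (evR_lc (v := fb5 r b l u) rfl (evR_lc (v := fb6 r b l u) rfl (evR_lc (v := fb7 r b l u) rfl (evR_lc (v := fb8 r b l u) rfl (evR_lc (v := fb9 r b l u) rfl (evR_lc (v := fS r b l u) rfl (evR_lc (v := fmq r b l u) rfl (evR_lc (v := fmp r b l u) rfl (evR_lc (v := fLp r b l u) rfl (evR_lc (v := fP0 r b l u) rfl (evR_lc (v := fP1 r b l u) rfl (evR_lc (v := fPt r b l u) rfl (evR_lc (v := fNx r b l u) rfl (evR_lc (v := fM r b l u) rfl (evR_lc (v := faa r b l u) rfl (evR_lc (v := fiS r b l u) rfl (evR_lc (v := ftt r b l u) rfl (evR_lc (v := ftp3 r b l u) rfl (evR_lc (v := fx3 r b l u) rfl (evR_lc (v := fy3 r b l u) rfl (evR_lc (v := fAb3 r b l u) rfl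 (evR_lc (v := fBb3 r b l u) rfl (evR_lc (v := fL3 r b l u) rfl (evR_lc (v := frhs3 r b l u) rfl (rfl)))))))))))))))))))))))))))))))))))

end ST

end Vale.Agent.Lib.P154
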